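import Vale.Agent.P042.R2.H463.Automatic
import Vale.Agent.P042.R2.H463.Cover
import Vale.Agent.P042.R2.H463CF.CFinal
import Vale.Agent.P042.R2.H463CF.GramA
import Vale.Agent.P042.R2.H463CF.GramB
import Vale.Agent.P042.R2.H352.Main

set_option autoImplicit false

/-!
P042: power saving for automatic and for context-free sets without differences `a n ^ k`; the cut
information of large difference free sets (the case `k = 2`, `a = 1` is the square-difference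
problem).
-/

namespace Vale.Agent.Results.P042.CutInformation

open Polynomial Vale.Agent.P042 Vale.Agent.P042.H463

/-- Let `h = a x ^ k`, `a ≥ 1`, `k ≥ 2`.
(1) Decoupling: if `A ⊆ [0, s_{T+1})` has no differences in `h(ℕ₊)` and the scales `s_i`, `i ≤ T`,
are `k`-th powers, `s_0 = 1`, `s_{i+1} = n_i s_i`, then `log |A|` is at most the sum of the numbers
`log r_h(n_i)` and of the mutual informations `cutInfo A s_i`, `1 ≤ i ≤ T`, between `x / s_i` and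
`x % s_i`, `x` uniform in `A`.
(2) For every `c < 1`: if such an `A ⊆ [0, N)`, `N = b^(m(T+1))`, has at least
`N^(1 - l^(c-1)/4)` elements, where `l = m log b` is large and `k ∣ m`, then the sum of the `T`
mutual informations at the scales `b^(m i)`, `1 ≤ i ≤ T`, is at least `(T + 1) l^c / 4`.
(3) For every `ε > 0` there are `δ, K > 0` such that a set `A ⊆ [0, N)`, `N = b^L`, without
differences in `h(ℕ₊)` has at most `K N^(1 - δ / (1 + log (b Q))^ε)` elements if at every cut `b^i`,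
`1 ≤ i ≤ L`, `k ∣ i`, it is a union of at most `Q` rectangles `U + b^i V`, `U ⊆ [0, b^i)`. The same
holds for the set of the numbers whose base `b` words of length `L` are accepted by a
nondeterministic automaton with `Q` states, the transitions of which may depend on the position.
(4) So if the set `S` of natural numbers is recognised by a deterministic automaton with the finite
set `σ` of states which reads the base `b` digits (an automatic set) and has no differences in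
`h(ℕ₊)`, then `|S ∩ [0, N)| ≤ K b N^(1 - δ / (1 + log (b |σ|))^ε)` for all `N ≥ 1`.
(5) The same bound if `S` is the set of the natural numbers whose base `b` digits form a word of a
context-free grammar `g`, with the size of `g` (the number of symbols of its rules) in place of
`|σ|`.
(6) The bound of (3) for the set of the values of the words of length `L` of a context-free grammar
`g` over the digits `0, ..., b - 1`, which may depend on `L`, with its size in place of `Q`. -/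
theorem result : ∀ a k : ℕ, 1 ≤ a → 2 ≤ k →
    (∀ (T : ℕ) (s n u : ℕ → ℕ), s 0 = 1 → (∀ i, i ≤ T → 1 ≤ n i ∧ s (i + 1) = n i * s i) →
      (∀ i, i ≤ T → 1 ≤ u i ∧ s i = u i ^ k) → ∀ A : Finset ℤ, A.Nonempty →
      DiffFree (C (a : ℤ) * X ^ k) A → (∀ x ∈ A, 0 ≤ x ∧ x < s (T + 1)) →
      Real.log A.card ≤ ∑ i ∈ Finset.range (T + 1), Real.log (rMax (C (a : ℤ) * X ^ k) (n i)) +
        ∑ i ∈ Finset.range T, cutInfo A (s (i + 1))) ∧
    (∀ c : ℝ, 0 < c → c < 1 → ∃ l₀ : ℝ, 1 ≤ l₀ ∧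
      ∀ b m T : ℕ, 2 ≤ b → k ∣ m → l₀ ≤ m * Real.log b → ∀ A : Finset ℤ,
      (∀ x ∈ A, 0 ≤ x ∧ x < ((b ^ (m * (T + 1)) : ℕ) : ℤ)) → DiffFree (C (a : ℤ) * X ^ k) A →
      ((b : ℝ) ^ (m * (T + 1))) ^ (1 - (m * Real.log b) ^ (c - 1) / 4) ≤ A.card →
      (T + 1) * ((m * Real.log b) ^ c / 4) ≤
        ∑ i ∈ Finset.range T, cutInfo A (b ^ (m * (i + 1)))) ∧
    (∀ ε : ℝ, 0 < ε → ∃ δ K : ℝ, 0 < δ ∧ 0 < K ∧
      ∀ (b Q L : ℕ) (A : Finset ℤ), 2 ≤ b → 1 ≤ Q → (∀ x ∈ A, 0 ≤ x ∧ x < ((b ^ L : ℕ) : ℤ)) →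
      (∀ i, 1 ≤ i → i ≤ L → k ∣ i → Covered A (b ^ i) Q) → DiffFree (C (a : ℤ) * X ^ k) A →
      (A.card : ℝ) ≤ K * ((b : ℝ) ^ L) ^ (1 - δ / (1 + Real.log (b * Q)) ^ ε)) ∧
    (∀ ε : ℝ, 0 < ε → ∃ δ K : ℝ, 0 < δ ∧ 0 < K ∧
      ∀ (b Q L : ℕ) (T : ℕ → Fin Q → ℕ → Fin Q → Prop) (I F : Fin Q → Prop) (A : Finset ℤ),
      2 ≤ b → Accepted b T I F L A → DiffFree (C (a : ℤ) * X ^ k) A →
      (A.card : ℝ) ≤ K * ((b : ℝ) ^ L) ^ (1 - δ / (1 + Real.log (b * Q)) ^ ε)) ∧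
    (∀ ε : ℝ, 0 < ε → ∃ δ K : ℝ, 0 < δ ∧ 0 < K ∧
      ∀ (b : ℕ) (σ : Type) [Fintype σ] (M : DFA ℕ σ) (S : Set ℕ), 2 ≤ b →
      (∀ n : ℕ, n ∈ S ↔ Nat.digits b n ∈ M.accepts) →
      (∀ x ∈ S, ∀ y ∈ S, ∀ n : ℕ, 1 ≤ n → x ≠ y + a * n ^ k) → ∀ N : ℕ, 1 ≤ N →
      ((S ∩ Set.Iio N).ncard : ℝ) ≤
        K * b * (N : ℝ) ^ (1 - δ / (1 + Real.log (b * Fintype.card σ)) ^ ε)) ∧
    (∀ ε : ℝ, 0 < ε → ∃ δ K : ℝ, 0 < δ ∧ 0 < K ∧
      ∀ (b : ℕ) (g : ContextFreeGrammar.{0} ℕ) (S : Set ℕ), 2 ≤ b →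
      (∀ n : ℕ, n ∈ S ↔ Nat.digits b n ∈ g.language) →
      (∀ x ∈ S, ∀ y ∈ S, ∀ n : ℕ, 1 ≤ n → x ≠ y + a * n ^ k) → ∀ N : ℕ, 1 ≤ N →
      ((S ∩ Set.Iio N).ncard : ℝ) ≤ K * b * (N : ℝ) ^ (1 - δ / (1 + Real.log
        (b * ((1 + ∑ r ∈ g.rules, (r.output.length + 1) : ℕ) : ℝ))) ^ ε)) ∧
    (∀ ε : ℝ, 0 < ε → ∃ δ K : ℝ, 0 < δ ∧ 0 < K ∧
      ∀ (b L : ℕ) (g : ContextFreeGrammar.{0} (Fin b)) (A : Finset ℤ), 2 ≤ b →
      (∀ x : ℤ, x ∈ A ↔ ∃ w ∈ g.language, w.length = L ∧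
        x = ((Nat.ofDigits b (w.map Fin.val) : ℕ) : ℤ)) →
      DiffFree (C (a : ℤ) * X ^ k) A →
      (A.card : ℝ) ≤ K * ((b : ℝ) ^ L) ^ (1 - δ / (1 + Real.log
        (b * ((2 + ∑ r ∈ g.rules, (r.output.length + 1) : ℕ) : ℝ))) ^ ε)) := by
  intro a k ha hk
  refine ⟨?_, ?_, ?_, ?_, ?_, ?_, ?_⟩
  · intro T s n u hs0 hs hu A hne hA hA1
    exact decoupling T s n u hs0 (fun i hi => (hs i hi).1) (fun i hi => (hs i hi).2) hu hne hA hA1
  · intro c hc0 hc1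
    exact info_of_large (almostPower ha hk) hc0 hc1
  · intro ε hε
    obtain ⟨δ, K, hδ, hK, h⟩ := cover_bound ha hk hε
    exact ⟨δ, K, hδ, hK, fun b Q L A hb hQ hA1 hcov hA => h b Q L A hb hA1 hcov hQ hA⟩
  · intro ε hε
    obtain ⟨δ, K, hδ, hK, h⟩ := auto_bound ha hk hε
    exact ⟨δ, K, hδ, hK, fun b Q L T I F A hb hacc hA => h b Q L T I F A hb (accepted_iff.1 hacc) hA⟩
  · intro ε hε
    exact dfa_bound ha hk hε
  · intro ε hε
    exact CF.cf_bound CF.g1 CF.g2 hk (almostPower ha hk) hε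
  · intro ε hε
    obtain ⟨δ, K, hδ, hK, h⟩ := H352.cfg_bound (by omega : 1 ≤ k) (almostPower ha hk) hε
    exact ⟨δ, K, hδ, hK, fun b L g A hb hA hfree => h b L _ g A hb (by omega) hA hfree⟩

end Vale.Agent.Results.P042.CutInformation
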