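import Vale.Agent.P042.R2.H886.Final
import Vale.Agent.P042.R2.H886.Main2
import Vale.Agent.P042.R2.H886.Branch2
import Vale.Agent.P042.R2.H886.Reg
import Vale.Agent.P042.R2.H499.Two
import Vale.Agent.P042.R2.H499.Regular

set_option autoImplicit false

/-!
P042, sets defined by base `b` digit statistics.  One finite automaton reads the base `b` digits of
`n` from the bottom, a second one reads them from the top; each move has an output in a monoid and
the outputs are multiplied (or added) up.  Parts 1 and 2: the set `A` of all `1 ≤ n ≤ N` which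
satisfy an arbitrary condition on the two states and the two outputs has at most `K N ^ (1 - c)`
elements if no difference in it is a nonzero value `h(n)`, for every `h` with an integer root (of
any multiplicity; for instance `h = x ^ 2`); the outputs lie in commutative monoids, or in products
of a virtually nilpotent group and a commutative monoid.  Part 3: the same for an arbitrary
condition on a `b`-regular sequence of polylogarithmic growth.  Parts 4, 5, 6, for `h = a x ^ k`: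
every subset of relative density `ε` of such a set has a difference `a n ^ k`.  Part 7: the same for
arbitrary sets which have few different sections after each prefix of base `m ^ k` digits, at many
places.
-/

namespace Vale.Agent.Results.P042.DigitStatistics

open Polynomial
open Vale.Agent.P057.H380 (run)

/-- The statistics of `n`: `δ` reads the base `b` digits from the bottom, starting in `q`, and `δ'`
reads them from the top, starting in `q'`; `run` gives the last state and the sum of the outputs. -/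
def stat {s : ℕ} {B B' : Type} [AddCommMonoid B] [AddCommMonoid B'] (b : ℕ)
    (δ : Fin s → ℕ → Fin s × B) (δ' : Fin s → ℕ → Fin s × B') (q q' : Fin s) (n : ℕ) :
    (Fin s × B) × (Fin s × B') :=
  (run δ q (Nat.digits b n), run δ' q' (Nat.digits b n).reverse)

/-- The last state and the product of the outputs in the order of reading; the outputs lie in a
monoid which need not be commutative. -/
def out {Q M : Type} [Monoid M] (δ : Q → ℕ → Q × M) : Q → List ℕ → Q × M
  | q, [] => (q, 1)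
  | q, d :: w => ((out δ (δ q d).1 w).1, (δ q d).2 * (out δ (δ q d).1 w).2)

/-- The outputs on the words of length `m` in the digits `0, ..., b - 1`. -/
def outs {Q M : Type} [Monoid M] (b : ℕ) (δ : Q → ℕ → Q × M) (m : ℕ) : Set M :=
  {z | ∃ q : Q, ∃ w : List ℕ, w.length = m ∧ (∀ d ∈ w, d < b) ∧ (out δ q w).2 = z}

/-- The statistics of `n`, outputs in arbitrary monoids. -/
def mstat {Q Q' M M' : Type} [Monoid M] [Monoid M'] (b : ℕ) (δ : Q → ℕ → Q × M)
    (δ' : Q' → ℕ → Q' × M') (q : Q) (q' : Q') (n : ℕ) : (Q × M) × (Q' × M') :=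
  (out δ q (Nat.digits b n), out δ' q' (Nat.digits b n).reverse)

/-- No two elements differ by `a * n ^ k` with `n ≥ 1`. -/
def PowerFree (a k : ℕ) (A : Set ℕ) : Prop := ∀ x ∈ A, ∀ n : ℕ, 1 ≤ n → x + a * n ^ k ∉ A

/-- The number of different sections of `A` after the prefix `p < s ^ i` (the number with the `i`
lowest base `s` digits of an element of `A`): the sets of all `y` with
`p + s ^ i * (x + s * y) ∈ A`, one for each next digit `x < s`. -/
noncomputable def branch (s : ℕ) (A : Finset ℕ) (i p : ℕ) : ℕ :=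
  (Set.range fun x : Fin s => {y : ℕ | p + s ^ i * (x + s * y) ∈ A}).ncard

/-- The `b`-kernel of a sequence `f` with values in `ℤ ^ r`: all sequences
`n ↦ f (b ^ j * n + s)`, `s < b ^ j`.  The sequence is `b`-regular when the `b`-kernel spans a
finitely generated `ℤ`-module. -/
def kernelSet {r : ℕ} (b : ℕ) (f : ℕ → Fin r → ℤ) : Set (ℕ → Fin r → ℤ) :=
  {g | ∃ j s : ℕ, s < b ^ j ∧ g = fun n => f (b ^ j * n + s)}

theorem mrun_eq {Q M : Type} [Monoid M] (δ : Q → ℕ → Q × M) (w : List ℕ) :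
    ∀ q : Q, Vale.Agent.P057.R3.H664.mrun δ q w = out δ q w := by
  induction w with
  | nil => intro q; rfl
  | cons d w ih =>
    intro q
    simp only [Vale.Agent.P057.R3.H664.mrun, out, ih]

theorem out_eq {Q M : Type} [Monoid M] (δ : Q → ℕ → Q × M) (w : List ℕ) :
    ∀ q : Q, Vale.Agent.P042.H499.out δ q w = out δ q w := by
  induction w with
  | nil => intro q; rfl
  | cons d w ih =>
    intro q
    simp only [Vale.Agent.P042.H499.out, out, ih]

theorem outs_eq {Q M : Type} [Monoid M] (b : ℕ) (δ : Q → ℕ → Q × M) (m : ℕ) :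
    Vale.Agent.P042.H499.outs b δ m = outs b δ m := by
  unfold Vale.Agent.P042.H499.outs outs
  simp only [out_eq]

theorem twoSet_eq {Q Q' M M' : Type} [Monoid M] [Monoid M'] (b : ℕ) (δ : Q → ℕ → Q × M)
    (δ' : Q' → ℕ → Q' × M') (q : Q) (q' : Q') (S : Set ((Q × M) × (Q' × M'))) :
    Vale.Agent.P042.H499.twoSet b δ δ' q q' S = {n | mstat b δ δ' q q' n ∈ S} := by
  unfold Vale.Agent.P042.H499.twoSet mstat
  simp only [out_eq]

/-- **1.** `h` of degree at least two with positive leading coefficient and with an integer root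
`z`, base `b`, `s` states, outputs in commutative monoids: there are `c > 0` and `K` such that for
all automata with the states `Fin s`, all commutative monoids of outputs, all `N` and all acceptance
sets `S` (which may depend on `N`): if `A = {1 ≤ a ≤ N : stat a ∈ S}` has no difference
`h(n) ≠ 0`, `n ≥ 1`, then `|A| ≤ K N ^ (1 - c)`.

**2.** The same `h` and `b`, finitely many states, outputs in `G × B` with `G` a virtually
nilpotent group and `B` a commutative monoid (`c` and `K` may depend on the automata).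

**3.** The same `h` and `b`: the same bound for `A = {1 ≤ a ≤ N : f a ∈ S}`, where `f` is a
`b`-regular sequence with values in `ℤ ^ r` (its `b`-kernel spans a finitely generated `ℤ`-module)
of polylogarithmic growth and `S` is arbitrary (`c` and `K` may depend on `f`, not on `S`, `N`).

**4.** Relative form for `h = a x ^ k`, outputs in commutative monoids: every subset `A'` of
`A = {n : stat n ∈ S}` no two elements of which differ by `a n ^ k`, `n ≥ 1`, satisfies
`|A' ∩ [1, N]| ≤ ε |A ∩ [1, N]| + C N ^ θ`, where `θ < 1` and `C` depend on `a, k, b, s, ε` only.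

**5.** Relative form for `h = a x ^ k`, outputs in arbitrary monoids, if there are at most
`K exp (m ^ c)` outputs on the words of length `m` in the digits `0, ..., b - 1`, for some
`c < 1`.

**6.** Relative form for `h = a x ^ k` and `A = {n : f n ∈ S}`, `f` and `S` as in part 3; `θ` and
`K` do not depend on `S`.

**7.** `h = a x ^ k`, `s = m ^ k` large and `A` any subset of `[0, s ^ T)`.  If for every place
`i ∈ J` and every prefix `p < s ^ i` there are at most `exp ((log s) ^ κ)` different sections of `A`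
after `p` (see `branch`), where `κ < 1`, then a subset `A'` of `A` no two elements of which differ
by `a n ^ k`, `n ≥ 1`, satisfies `|A'| ≤ ε |A| + s ^ T exp (- |J| (log s) ^ κ)`. -/
theorem result :
    (∀ h : ℤ[X], 2 ≤ h.natDegree → 0 < h.leadingCoeff → ∀ z : ℤ, h.eval z = 0 →
      ∀ b : ℕ, 2 ≤ b → ∀ s : ℕ, ∃ c : ℝ, 0 < c ∧ ∃ K : ℝ, 0 < K ∧
        ∀ (B B' : Type) [AddCommMonoid B] [AddCommMonoid B'] (δ : Fin s → ℕ → Fin s × B)
          (δ' : Fin s → ℕ → Fin s × B') (q q' : Fin s) (S : Set ((Fin s × B) × (Fin s × B')))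
          (N : ℕ) (A : Finset ℤ), 1 ≤ N →
            (∀ a : ℤ, a ∈ A ↔ 1 ≤ a ∧ a ≤ N ∧ stat b δ δ' q q' a.toNat ∈ S) →
            Vale.Agent.P042.DiffFree h A → (A.card : ℝ) ≤ K * (N : ℝ) ^ (1 - c)) ∧
    (∀ h : ℤ[X], 2 ≤ h.natDegree → 0 < h.leadingCoeff → ∀ z : ℤ, h.eval z = 0 →
      ∀ b : ℕ, 2 ≤ b → ∀ (Q Q' G B G' B' : Type) [Finite Q] [Finite Q'] [Group G] [CommMonoid B]
        [Group G'] [CommMonoid B'], Group.IsVirtuallyNilpotent G → Group.IsVirtuallyNilpotent G' →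
      ∀ (δ : Q → ℕ → Q × (G × B)) (δ' : Q' → ℕ → Q' × (G' × B')),
      ∃ c : ℝ, 0 < c ∧ ∃ K : ℝ, 0 < K ∧
        ∀ (q : Q) (q' : Q') (S : Set ((Q × (G × B)) × (Q' × (G' × B')))) (N : ℕ) (A : Finset ℤ),
          1 ≤ N → (∀ a : ℤ, a ∈ A ↔ 1 ≤ a ∧ a ≤ N ∧ mstat b δ δ' q q' a.toNat ∈ S) →
          Vale.Agent.P042.DiffFree h A → (A.card : ℝ) ≤ K * (N : ℝ) ^ (1 - c)) ∧
    (∀ h : ℤ[X], 2 ≤ h.natDegree → 0 < h.leadingCoeff → ∀ z : ℤ, h.eval z = 0 →
      ∀ b : ℕ, 2 ≤ b → ∀ (r : ℕ) (f : ℕ → Fin r → ℤ),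
      (Submodule.span ℤ (kernelSet b f)).FG → ∀ C d : ℕ,
      (∀ (n : ℕ) (i : Fin r), |f n i| ≤ C * ((Nat.log b n : ℤ) + 1) ^ d) →
      ∃ c : ℝ, 0 < c ∧ ∃ K : ℝ, 0 < K ∧
        ∀ (S : Set (Fin r → ℤ)) (N : ℕ) (A : Finset ℤ), 1 ≤ N →
          (∀ a : ℤ, a ∈ A ↔ 1 ≤ a ∧ a ≤ N ∧ f a.toNat ∈ S) →
          Vale.Agent.P042.DiffFree h A → (A.card : ℝ) ≤ K * (N : ℝ) ^ (1 - c)) ∧
    (∀ a k : ℕ, 1 ≤ a → 2 ≤ k → ∀ b : ℕ, 2 ≤ b → ∀ s : ℕ, ∀ ε : ℝ, 0 < ε →
      ∃ θ C : ℝ, 0 < θ ∧ θ < 1 ∧ 0 < C ∧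
        ∀ (B B' : Type) [AddCommMonoid B] [AddCommMonoid B'] (δ : Fin s → ℕ → Fin s × B)
          (δ' : Fin s → ℕ → Fin s × B') (q q' : Fin s) (S : Set ((Fin s × B) × (Fin s × B')))
          (A' : Set ℕ), A' ⊆ {n | stat b δ δ' q q' n ∈ S} → PowerFree a k A' → ∀ N : ℕ, 1 ≤ N →
            ((A' ∩ Set.Icc 1 N).ncard : ℝ) ≤
              ε * (({n | stat b δ δ' q q' n ∈ S} ∩ Set.Icc 1 N).ncard : ℝ) + C * (N : ℝ) ^ θ) ∧
    (∀ a k : ℕ, 1 ≤ a → 2 ≤ k → ∀ b : ℕ, 2 ≤ b → ∀ s : ℕ, ∀ c : ℝ, c < 1 → ∀ K ε : ℝ, 0 < ε →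
      ∃ θ C : ℝ, 0 < θ ∧ θ < 1 ∧ 0 < C ∧
        ∀ (M M' : Type) [Monoid M] [Monoid M'] (δ : Fin s → ℕ → Fin s × M)
          (δ' : Fin s → ℕ → Fin s × M'),
          (∀ m : ℕ, ((outs b δ m).ncard : ℝ) ≤ K * Real.exp ((m : ℝ) ^ c)) →
          (∀ m : ℕ, ((outs b δ' m).ncard : ℝ) ≤ K * Real.exp ((m : ℝ) ^ c)) →
          ∀ (q q' : Fin s) (S : Set ((Fin s × M) × (Fin s × M'))) (A' : Set ℕ),
            A' ⊆ {n | mstat b δ δ' q q' n ∈ S} → PowerFree a k A' → ∀ N : ℕ, 1 ≤ N →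
              ((A' ∩ Set.Icc 1 N).ncard : ℝ) ≤
                ε * (({n | mstat b δ δ' q q' n ∈ S} ∩ Set.Icc 1 N).ncard : ℝ) + C * (N : ℝ) ^ θ) ∧
    (∀ a k : ℕ, 1 ≤ a → 2 ≤ k → ∀ b : ℕ, 2 ≤ b → ∀ (r : ℕ) (f : ℕ → Fin r → ℤ),
      (Submodule.span ℤ (kernelSet b f)).FG → ∀ C c : ℕ,
      (∀ (n : ℕ) (i : Fin r), |f n i| ≤ C * ((Nat.log b n : ℤ) + 1) ^ c) → ∀ ε : ℝ, 0 < ε →
      ∃ θ K : ℝ, 0 < θ ∧ θ < 1 ∧ 0 < K ∧
        ∀ (S : Set (Fin r → ℤ)) (A' : Set ℕ), A' ⊆ {n | f n ∈ S} → PowerFree a k A' →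
          ∀ N : ℕ, 1 ≤ N →
            ((A' ∩ Set.Icc 1 N).ncard : ℝ) ≤
              ε * (({n | f n ∈ S} ∩ Set.Icc 1 N).ncard : ℝ) + K * (N : ℝ) ^ θ) ∧
    (∀ a k : ℕ, 1 ≤ a → 2 ≤ k → ∀ κ : ℝ, κ < 1 → ∀ ε : ℝ, 0 < ε →
      ∃ m₀ : ℕ, ∀ m : ℕ, m₀ ≤ m → ∀ (T : ℕ) (A A' J : Finset ℕ),
        (∀ n ∈ A, n < (m ^ k) ^ T) → A' ⊆ A → PowerFree a k (A' : Set ℕ) → (∀ i ∈ J, i < T) →
        (∀ i ∈ J, ∀ p < (m ^ k) ^ i,
          (branch (m ^ k) A i p : ℝ) ≤ Real.exp ((Real.log ((m ^ k : ℕ) : ℝ)) ^ κ)) →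
        (A'.card : ℝ) ≤ ε * A.card + ((m ^ k : ℕ) : ℝ) ^ T *
          Real.exp (-(J.card * (Real.log ((m ^ k : ℕ) : ℝ)) ^ κ))) := by
  refine ⟨?_, ?_, ?_, ?_, ?_, ?_, ?_⟩
  · intro h hd _ z hz b hb s
    obtain ⟨θ, K, hθ0, hθ1, hK, hmain⟩ :=
      Vale.Agent.P042.H886.saving h (by omega) z hz hb s
    refine ⟨1 - θ, by linarith, K, hK, ?_⟩
    intro B B' _ _ δ δ' q q' S N A hN hA hfree
    have h1 := hmain B B' δ δ' q q' S N A hN hA hfree
    rwa [show 1 - (1 - θ) = θ by ring]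
  · intro h hd _ z hz b hb Q Q' G B G' B' _ _ _ _ _ _ hG hG' δ δ'
    obtain ⟨θ, K, hθ0, hθ1, hK, hmain⟩ :=
      Vale.Agent.P042.H886.saving_virt h (by omega) z hz hb hG hG' δ δ'
    refine ⟨1 - θ, by linarith, K, hK, ?_⟩
    intro q q' S N A hN hA hfree
    have h1 := hmain q q' S N A hN (fun a => by
      rw [hA a, mstat, mrun_eq, mrun_eq]) hfree
    rwa [show 1 - (1 - θ) = θ by ring]
  · intro h hd _ z hz b hb r f hf C d hg
    obtain ⟨θ, K, hθ0, hθ1, hK, hmain⟩ :=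
      Vale.Agent.P042.H886.saving_regular h (by omega) z hz hb f hf C d hg
    refine ⟨1 - θ, by linarith, K, hK, ?_⟩
    intro S N A hN hA hfree
    have h1 := hmain S N A hN hA hfree
    rwa [show 1 - (1 - θ) = θ by ring]
  · intro a k ha hk b hb s ε hε
    exact Vale.Agent.P042.H499.comm_relative ha hk hb s hε
  · intro a k ha hk b hb s c hc K ε hε
    obtain ⟨θ, C, h0, h1, h2, h3⟩ := Vale.Agent.P042.H499.two_relative ha hk hb s hc K hε
    refine ⟨θ, C, h0, h1, h2, ?_⟩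
    intro M M' _ _ δ δ' hg hg' q q' S A' hA hfree N hN
    have h4 := h3 M M' δ δ' (fun m => by rw [outs_eq]; exact hg m)
      (fun m => by rw [outs_eq]; exact hg' m) q q' S A' (by rw [twoSet_eq]; exact hA) hfree N hN
    rwa [twoSet_eq] at h4
  · intro a k ha hk b hb r f hf C c hg ε hε
    obtain ⟨θ, K, h0, h1, h2, h3⟩ :=
      Vale.Agent.P042.H499.regular_relative ha hk hb f hf C c hg hε
    exact ⟨θ, K, h0, h1, h2, fun S A' hsub hfree N hN => h3 S _ A' rfl hsub hfree N hN⟩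
  · intro a k ha hk κ hκ ε hε
    obtain ⟨m₀, h⟩ := Vale.Agent.P042.H886.branch_saving ha hk κ hκ ε hε
    refine ⟨m₀, fun m hm T A A' J hA hsub hfree hJT hJ => ?_⟩
    exact h m hm T A A' J (fun n hn => Finset.mem_range.2 (hA n hn)) hsub
      (fun x hx n hn hx' => hfree x (Finset.mem_coe.2 hx) n hn (Finset.mem_coe.2 hx'))
      (fun i hi => Finset.mem_range.2 (hJT i hi)) hJ

end Vale.Agent.Results.P042.DigitStatistics
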