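import Vale.Agent.P042.R2.H757.FinU
import Vale.Agent.P042.R2.H618.PairUF
import Vale.Agent.P042.R2.H605.RowAllU
import Vale.Agent.P042.R2.H808.Res
import Vale.Agent.P042.R2.H807.ResU

set_option autoImplicit false

/-!
P042, sets defined by multiplicative statistics.  Let `T` be a thin set of primes (at most
`C0 x ^ (1 - η)` of them up to `x`), and colour the other primes in such a way that the class of
each of them has at least `x exp (-(log x) ^ c)` members up to `x`, for all `x ≥ x0`, `c < 1` (for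
instance by the residue classes modulo `q`).  A subset of `{1, ..., N}` which is closed under the
exchange of prime factors of exponent one of the same colour and which has no difference `a m ^ k`,
`m ≥ 1`, has at most `C N ^ (1 - η / k + ε)` elements.  For squares and `η = 1` the exponent `1 / 2`
cannot be lowered.
-/

namespace Vale.Agent.Results.P042.MultiplicativeStatistics

open Finset
open Vale.Agent.P042.H757
open Vale.Agent.P042.H757.U

/-- The four parts: the bound for arbitrary colourings outside a thin set; the bound for sets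
defined by an arbitrary condition on a multiplicative function whose value at a prime outside a thin
set depends on its residue class modulo `q` only; the bound for sets closed under all exchanges;
sharpness for squares. -/
theorem result :
    (∀ a k : ℕ, 1 ≤ a → 2 ≤ k → ∀ (η C0 c : ℝ) (x0 : ℕ), 0 < η → η ≤ 1 → 0 ≤ C0 → c < 1 →
      ∀ ε : ℝ, 0 < ε → ∃ C : ℝ, 0 < C ∧ ∀ (T : Set ℕ) (col : ℕ → ℕ), Thin C0 η T →
        (∀ p : ℕ, p.Prime → p ∉ T → RichSet c x0 (cls T col p)) →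
        ∀ (N : ℕ) (A : Finset ℕ), 1 ≤ N → A ⊆ Icc 1 N → ExchT T col N A → MonoFree a k A →
          (A.card : ℝ) ≤ C * (N : ℝ) ^ (1 - η / (k : ℝ) + ε)) ∧
    (∀ a k q : ℕ, 1 ≤ a → 2 ≤ k → 0 < q → ∀ η C0 : ℝ, 0 < η → η ≤ 1 → 0 ≤ C0 →
      ∀ ε : ℝ, 0 < ε → ∃ C : ℝ, 0 < C ∧ ∀ T : Set ℕ, Thin C0 η T →
        ∀ (M : Type) [Mul M] (f : ℕ → M),
          (∀ m n : ℕ, m.Coprime n → f (m * n) = f m * f n) →
          (∀ p p' : ℕ, p.Prime → p'.Prime → p ∉ T → p' ∉ T → p % q = p' % q → f p = f p') →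
          ∀ (S : Set M) (N : ℕ) (A : Finset ℕ), 1 ≤ N →
            (∀ n : ℕ, n ∈ A ↔ 1 ≤ n ∧ n ≤ N ∧ f n ∈ S) → MonoFree a k A →
            (A.card : ℝ) ≤ C * (N : ℝ) ^ (1 - η / (k : ℝ) + ε)) ∧
    (∀ a k : ℕ, 1 ≤ a → 2 ≤ k → ∀ c : ℝ, c < 1 → ∀ x0 t0 : ℕ, ∃ Q : ℕ,
      ∀ (T : Set ℕ) (col : ℕ → ℕ), (∀ p ∈ T, p ≤ t0) →
        (∀ p : ℕ, p.Prime → p ∉ T → RichSet c x0 (cls T col p)) →
        ∀ (N : ℕ) (A : Finset ℕ), A ⊆ Icc 1 N → ExchAllT T col N A → MonoFree a k A →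
          A.card ≤ (Nat.log 2 N + 1) ^ Q) ∧
    (∀ ε : ℝ, 0 < ε → ∃ c : ℝ, 0 < c ∧ ∀ N : ℕ, 1 ≤ N → ∃ A : Finset ℕ, A ⊆ Icc 1 N ∧
      (∀ (T : Set ℕ) (col : ℕ → ℕ), ExchT T col N A) ∧ MonoFree 1 2 A ∧
      c * (N : ℝ) ^ ((1 : ℝ) / 2 - ε) ≤ (A.card : ℝ)) :=
  ⟨clause1 Vale.Agent.P042.H618.rowPairU,
    clause2 Vale.Agent.P042.H618.rowPairU
      (Vale.Agent.P042.H807R.rowResU Vale.Agent.P042.H808.rowRes),
    clause3 (Vale.Agent.P042.H605.rowAllU Vale.Agent.P042.H618.rowPairU),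
    clause4 Vale.Agent.P042.H808.rowRes⟩

end Vale.Agent.Results.P042.MultiplicativeStatistics
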