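import Vale.Agent.P042.R2.H600.Main3
import Vale.Agent.P042.R2.H485.Stmt
import Vale.Agent.P042.R2.H285.Main

set_option autoImplicit false

/-!
P042: lower bounds for `r_h(N)`, `h = a g ^ m`, with exponents very close to `1`, and upper bounds
for sets without differences `a n ^ k` modulo `q`.
-/

namespace Vale.Agent.Results.P042.PowerLowerBounds

open Polynomial

/-- (1) For `h = a g ^ m` with `a ≥ 1`, `m ≥ 2` and `g` squarefree over `ℚ` and not constant, of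
degree `k = m deg g`, and a nonempty finite set `P` of primes `p` with `p - 1 ∣ m`,
`r_h(N) ≥ c N ^ (1 - δ / k)`,
`δ = (log (|P| + 1) + ∑ p ∈ P, log (p / (p - 1))) / ∑ p ∈ P, log p`.
(2) For all `θ < 1 / 2` and `ε > 0` and all large `M` there are at least `M ^ (1 - ε)` even `m ≤ M`
such that for all these `g` and `a`
`r_h(N) ≥ c N ^ (1 - exp (-(log m) ^ θ) / k)`.
(3) For all `θ < 1 / 2`, `ε > 0` and `κ > 0` and all large `K` there are at least `K ^ (1 - ε)` even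
`k ≤ K` such that for `h = x ^ k` the bound `r_h(N) ≤ B N ^ (1 - κ exp (-(log k) ^ θ) / k)` fails
for every `B`.
(4) `ModSq`: bounds for sets of residues modulo `L n`, `n` odd, without square differences, and
`PerSq`: bounds for unions of residue classes modulo `n` in `{1, ..., M}` without differences
`k ^ 2`.
(5) `ModPow`: bounds for finite sets of integers without positive differences `≡ a n ^ k` modulo
`q`. -/
theorem result :
    (∀ (g : ℤ[X]) (a m : ℕ) (P : Finset ℕ), Squarefree (g.map (Int.castRingHom ℚ)) →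
      1 ≤ g.natDegree → 0 < a → 2 ≤ m → P.Nonempty → (∀ p ∈ P, p.Prime) →
      (∀ p ∈ P, p - 1 ∣ m) →
      ∃ c : ℝ, 0 < c ∧ ∀ N : ℕ, 1 ≤ N →
        c * (N : ℝ) ^ (1 - ((Real.log (P.card + 1) + ∑ p ∈ P, Real.log (p / (p - 1)))
            / ∑ p ∈ P, Real.log p) / ((m * g.natDegree : ℕ) : ℝ))
          ≤ (Vale.Agent.P042.rMax (C (a : ℤ) * g ^ m) N : ℝ)) ∧
    (∀ θ ε : ℝ, 0 < θ → θ < 1 / 2 → 0 < ε → ε < 1 → ∃ M₀ : ℕ, ∀ M : ℕ, M₀ ≤ M →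
      ∃ S : Finset ℕ, S ⊆ Finset.Icc 2 M ∧ (M : ℝ) ^ (1 - ε) ≤ S.card ∧ ∀ m ∈ S, Even m ∧
      ∀ (g : ℤ[X]) (a : ℕ), Squarefree (g.map (Int.castRingHom ℚ)) → 1 ≤ g.natDegree → 0 < a →
      ∃ c : ℝ, 0 < c ∧ ∀ N : ℕ, 1 ≤ N →
        c * (N : ℝ) ^ (1 - Real.exp (-(Real.log m) ^ θ) / ((m * g.natDegree : ℕ) : ℝ))
          ≤ (Vale.Agent.P042.rMax (C (a : ℤ) * g ^ m) N : ℝ)) ∧
    (∀ θ ε κ : ℝ, 0 < θ → θ < 1 / 2 → 0 < ε → ε < 1 → 0 < κ → ∃ K₀ : ℕ, ∀ K : ℕ, K₀ ≤ K →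
      ∃ S : Finset ℕ, S ⊆ Finset.Icc 2 K ∧ (K : ℝ) ^ (1 - ε) ≤ S.card ∧ ∀ k ∈ S, Even k ∧
      ∀ B : ℝ, ∃ N : ℕ, 1 ≤ N ∧
        B * (N : ℝ) ^ (1 - κ * Real.exp (-(Real.log k) ^ θ) / (k : ℝ)) <
          (Vale.Agent.P042.rMax (X ^ k) N : ℝ)) ∧
    Vale.Agent.P042.H485.ModSq ∧ Vale.Agent.P042.H485.PerSq ∧ Vale.Agent.P042.H285.ModPow :=
  ⟨fun g a m P hg hd ha hm hP0 hP hPm =>
      Vale.Agent.P042.R2.H600.lb_set g hg hd a m ha hm P hP0 hP hPm,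
    fun θ ε h0 h1 h2 h3 => Vale.Agent.P042.R2.H600.lb_dense θ ε h0 h1 h2 h3,
    fun θ ε κ h0 h1 h2 h3 hκ => Vale.Agent.P042.R2.H600.no_dense θ ε h0 h1 h2 h3 κ hκ,
    Vale.Agent.P042.H485.modSq, Vale.Agent.P042.H485.perSq, Vale.Agent.P042.H285.modPow⟩

end Vale.Agent.Results.P042.PowerLowerBounds
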